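import Vale.Agent.P215Z.Grid.Defs

/-! G2, auxiliary results: edges and faces of the grid, holonomy, nilpotent groups -/
noncomputable section
namespace Vale.Agent.P215Z.Shx
open Classical

theorem gadj_iff {r r' : Gp} : GAdj r r' ↔ (r'.1 = r.1 + 1 ∧ r'.2 = r.2) ∨
    (r'.1 = r.1 - 1 ∧ r'.2 = r.2) ∨ (r'.1 = r.1 ∧ r'.2 = r.2 + 1) ∨
      (r'.1 = r.1 ∧ r'.2 = r.2 - 1) := by
  simp only [GAdj, Prod.ext_iff, Prod.fst_add, Prod.snd_add, Prod.fst_sub, Prod.snd_sub]
  omega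

theorem gadj_symm {r r' : Gp} (h : GAdj r r') : GAdj r' r := by
  rw [gadj_iff] at h ⊢
  omega

theorem lf_val {r r' : Gp} (h : GAdj r r') :
    (r'.1 = r.1 + 1 ∧ r'.2 = r.2 ∧ (lf r r').1 = r.1 ∧ (lf r r').2 = r.2) ∨
    (r'.1 = r.1 - 1 ∧ r'.2 = r.2 ∧ (lf r r').1 = r.1 - 1 ∧ (lf r r').2 = r.2 - 1) ∨
    (r'.1 = r.1 ∧ r'.2 = r.2 + 1 ∧ (lf r r').1 = r.1 - 1 ∧ (lf r r').2 = r.2) ∨
    (r'.1 = r.1 ∧ r'.2 = r.2 - 1 ∧ (lf r r').1 = r.1 ∧ (lf r r').2 = r.2 - 1) := by
  obtain ⟨x, y⟩ := r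
  rcases h with rfl | rfl | rfl | rfl
  · simp [lf]
  · have h1 : ¬ x - 1 = x + 1 := by omega
    have h2 : ¬ x - 1 = x := by omega
    simp [lf, h1, h2]
  · simp [lf]
  · have h1 : ¬ y - 1 = y + 1 := by omega
    have h2 : ¬ x = x - 1 := by omega
    simp [lf, h1, h2]

theorem gadj_lf {r r' : Gp} (h : GAdj r r') : GAdj (lf r r') (lf r' r) := by
  have h1 := lf_val h
  have h2 := lf_val (gadj_symm h)
  rw [gadj_iff]
  omega

theorem corner_lf {r r' : Gp} (h : GAdj r r') : Corner (lf r r') r ∧ Corner (lf r r') r' := by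
  have h1 := lf_val h
  unfold Corner
  omega

theorem lf_eq {r r' f : Gp} (h : GAdj r r') : lf r r' = f ↔ (r = f ∧ r' = f + (1, 0)) ∨
    (r = f + (1, 0) ∧ r' = f + (1, 1)) ∨ (r = f + (1, 1) ∧ r' = f + (0, 1)) ∨
      (r = f + (0, 1) ∧ r' = f) := by
  have h1 := lf_val h
  simp only [Prod.ext_iff, Prod.fst_add, Prod.snd_add]
  constructor
  · intro h2
    rcases h1 with h1 | h1 | h1 | h1
    · exact Or.inl (by omega)
    · exact Or.inr (Or.inr (Or.inl (by omega)))
    · exact Or.inr (Or.inl (by omega))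
    · exact Or.inr (Or.inr (Or.inr (by omega)))
  · rintro (h2 | h2 | h2 | h2) <;> omega

theorem face_edges (f : Gp) : (GAdj f (f + (1, 0)) ∧ lf f (f + (1, 0)) = f) ∧
    (GAdj (f + (1, 0)) (f + (1, 1)) ∧ lf (f + (1, 0)) (f + (1, 1)) = f) ∧
    (GAdj (f + (1, 1)) (f + (0, 1)) ∧ lf (f + (1, 1)) (f + (0, 1)) = f) ∧
    (GAdj (f + (0, 1)) f ∧ lf (f + (0, 1)) f = f) := by
  have h1 : GAdj f (f + (1, 0)) := by simp [gadj_iff]
  have h2 : GAdj (f + (1, 0)) (f + (1, 1)) := by simp [gadj_iff]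
  have h3 : GAdj (f + (1, 1)) (f + (0, 1)) := by simp [gadj_iff]
  have h4 : GAdj (f + (0, 1)) f := by simp [gadj_iff]
  exact ⟨⟨h1, (lf_eq h1).2 (by simp)⟩, ⟨h2, (lf_eq h2).2 (by simp)⟩, ⟨h3, (lf_eq h3).2 (by simp)⟩,
    h4, (lf_eq h4).2 (by simp)⟩

theorem corner_cases {f r : Gp} (h : Corner f r) :
    r = f ∨ r = f + (1, 0) ∨ r = f + (1, 1) ∨ r = f + (0, 1) := by
  simp only [Corner, Prod.ext_iff, Prod.fst_add, Prod.snd_add] at h ⊢
  omega

theorem exists_corner {f f' : Gp} (h : GAdj f f') : ∃ r, Corner f r ∧ Corner f' r := by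
  rw [gadj_iff] at h
  refine ⟨(max f.1 f'.1, max f.2 f'.2), ?_, ?_⟩ <;> simp only [Corner] <;> omega

theorem mem_sqs {m : ℕ} {f : Gp} : f ∈ sqs m ↔ InSq m f := by
  simp only [sqs, Finset.mem_product, Finset.mem_Ico, InSq, and_assoc]

/-- the oriented edges of the grid -/
def edges (m : ℕ) : Finset (Gp × Gp) :=
  ((Finset.Icc (0 : ℤ) m ×ˢ Finset.Icc (0 : ℤ) m) ×ˢ
    (Finset.Icc (0 : ℤ) m ×ˢ Finset.Icc (0 : ℤ) m)).filter fun e => GAdj e.1 e.2

theorem mem_edges {m : ℕ} {e : Gp × Gp} : e ∈ edges m ↔ InG m e.1 ∧ InG m e.2 ∧ GAdj e.1 e.2 := by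
  simp only [edges, Finset.mem_filter, Finset.mem_product, Finset.mem_Icc, InG, and_assoc]

theorem swap_edges {m : ℕ} {e : Gp × Gp} (h : e ∈ edges m) : e.swap ∈ edges m := by
  rw [mem_edges] at h ⊢
  exact ⟨h.2.1, h.1, gadj_symm h.2.2⟩

theorem inG_corner {m : ℕ} {f r : Gp} (h : InSq m f) (h' : Corner f r) : InG m r := by
  unfold InSq Corner InG at *
  omega

theorem edges_of_lf {m : ℕ} {r r' : Gp} (h : GAdj r r') (h' : InSq m (lf r r')) :
    (r, r') ∈ edges m :=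
  mem_edges.2 ⟨inG_corner h' (corner_lf h).1, inG_corner h' (corner_lf h).2, h⟩

theorem sum_face {M : Type} [AddCommGroup M] (a : Gp → Gp → M) {m : ℕ} {f : Gp} (hf : InSq m f) :
    ∑ e ∈ (edges m).filter (fun e => lf e.1 e.2 = f), a e.1 e.2 =
      a f (f + (1, 0)) + a (f + (1, 0)) (f + (1, 1)) + a (f + (1, 1)) (f + (0, 1)) +
        a (f + (0, 1)) f := by
  obtain ⟨h1, h2, h3, h4⟩ := face_edges f
  have h : (edges m).filter (fun e => lf e.1 e.2 = f) = {(f, f + (1, 0)),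
      (f + (1, 0), f + (1, 1)), (f + (1, 1), f + (0, 1)), (f + (0, 1), f)} := by
    ext ⟨r, r'⟩
    simp only [Finset.mem_filter, Finset.mem_insert, Finset.mem_singleton, Prod.mk.injEq]
    constructor
    · rintro ⟨k1, k2⟩
      exact (lf_eq (mem_edges.1 k1).2.2).1 k2
    · rintro (⟨rfl, rfl⟩ | ⟨rfl, rfl⟩ | ⟨rfl, rfl⟩ | ⟨rfl, rfl⟩)
      · exact ⟨edges_of_lf h1.1 (h1.2.symm ▸ hf), h1.2⟩
      · exact ⟨edges_of_lf h2.1 (h2.2.symm ▸ hf), h2.2⟩
      · exact ⟨edges_of_lf h3.1 (h3.2.symm ▸ hf), h3.2⟩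
      · exact ⟨edges_of_lf h4.1 (h4.2.symm ▸ hf), h4.2⟩
  rw [h, Finset.sum_insert, Finset.sum_insert, Finset.sum_insert, Finset.sum_singleton]
  · simp only [add_assoc]
  all_goals simp [Prod.ext_iff]

section hol

variable {α G G' : Type} [Group G] [Group G']

theorem map_holL (φ : G →* G') (U : α → α → G) (l : List α) :
    φ (holL U l) = holL (fun x y => φ (U x y)) l := by
  induction l with
  | nil => exact map_one φ
  | cons x l ih =>
    cases l with
    | nil => exact map_one φ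
    | cons y l => rw [holL, holL, map_mul, ih]

theorem map_holN (φ : G →* G') (U : α → α → G) (x : ℕ → α) (n : ℕ) :
    φ (holN U x n) = holN (fun x y => φ (U x y)) x n := by
  induction n with
  | zero => exact map_one φ
  | succ n ih => rw [holN, holN, map_mul, ih]

theorem holL_gauge {R : α → α → Prop} {U V : α → α → G} (ν : α → G)
    (h : ∀ x y, R x y → V x y = ν x * U x y * (ν y)⁻¹) {l : List α} (hl : l.IsChain R) {x y : α}
    (hx : l.head? = some x) (hy : l.getLast? = some y) :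
    holL V l = ν x * holL U l * (ν y)⁻¹ := by
  induction l generalizing x with
  | nil => simp at hx
  | cons z l ih =>
    obtain rfl : z = x := by simpa using hx
    cases l with
    | nil =>
      obtain rfl : z = y := by simpa using hy
      simp [holL]
    | cons w l =>
      rw [List.isChain_cons_cons] at hl
      rw [List.getLast?_cons_cons] at hy
      rw [holL, holL, ih hl.2 rfl hy, h _ _ hl.1]
      group

theorem holN_gauge {U V : α → α → G} (ν : α → G) (x : ℕ → α) (n : ℕ)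
    (h : ∀ k < n, V (x k) (x (k + 1)) = ν (x k) * U (x k) (x (k + 1)) * (ν (x (k + 1)))⁻¹) :
    holN V x n = ν (x 0) * holN U x n * (ν (x n))⁻¹ := by
  induction n with
  | zero => simp [holN]
  | succ n ih =>
    rw [holN, holN, ih fun k hk => h k (hk.trans n.lt_succ_self), h n n.lt_succ_self]
    group

theorem holL_one (l : List α) : holL (fun _ _ => (1 : G)) l = 1 := by
  have h := map_holL (1 : G →* G) (fun _ _ : α => (1 : G)) l
  exact h.symm

theorem ofMul_holN {A : Type} [CommGroup A] (U : α → α → A) (x : ℕ → α) (n : ℕ) :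
    ∑ k ∈ Finset.range n, Additive.ofMul (U (x k) (x (k + 1))) = Additive.ofMul (holN U x n) := by
  induction n with
  | zero => rfl
  | succ n ih => rw [Finset.sum_range_succ, ih, holN, ofMul_mul]

end hol

open scoped commutatorElement in
/-- a subgroup of a nilpotent group which generates the abelianisation is the whole group -/
theorem nil_gen (Γ : Type) [Group Γ] [Group.IsNilpotent Γ] : ∀ H : Subgroup Γ,
    (∀ (A : Type) [CommGroup A] (φ : Γ →* A), (∀ x ∈ H, φ x = 1) → ∀ x, φ x = 1) → H = ⊤ := by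
  refine Group.nilpotent_center_quotient_ind (P := fun Γ _ _ => ∀ H : Subgroup Γ,
    (∀ (A : Type) [CommGroup A] (φ : Γ →* A), (∀ x ∈ H, φ x = 1) → ∀ x, φ x = 1) → H = ⊤) Γ
    (fun Γ _ _ H _ => Subsingleton.elim _ _) ?_
  · intro Γ _ _ ih H h
    have h1 := ih (H.map (QuotientGroup.mk' _)) fun A _ φ hφ x => by
      obtain ⟨y, rfl⟩ := QuotientGroup.mk'_surjective _ x
      exact h A (φ.comp (QuotientGroup.mk' _))
        (fun z hz => hφ _ (Subgroup.mem_map_of_mem _ hz)) y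
    have h2 : ∀ x : Γ, ∃ a ∈ H, ∃ z ∈ Subgroup.center Γ, x = a * z := fun x => by
      obtain ⟨a, ha, e⟩ : QuotientGroup.mk' _ x ∈ H.map (QuotientGroup.mk' (Subgroup.center Γ)) :=
        h1 ▸ Subgroup.mem_top _
      exact ⟨a, ha, a⁻¹ * x, QuotientGroup.eq.1 e, by simp⟩
    have h3 : commutator Γ ≤ H := Subgroup.commutator_le.2 fun x _ y _ => by
      obtain ⟨a, ha, z, hz, rfl⟩ := h2 x
      obtain ⟨b, hb, w, hw, rfl⟩ := h2 y
      have c1 := Subgroup.mem_center_iff.1 hz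
      have c2 := Subgroup.mem_center_iff.1 hw
      have e : ⁅a * z, b * w⁆ = a * b * a⁻¹ * b⁻¹ := by
        calc ⁅a * z, b * w⁆ = a * (z * (b * w)) * z⁻¹ * a⁻¹ * (w⁻¹ * b⁻¹) := by
              rw [commutatorElement_def]
              group
          _ = a * b * (w * a⁻¹) * (w⁻¹ * b⁻¹) := by
              rw [← c1 (b * w)]
              group
          _ = a * b * a⁻¹ * b⁻¹ := by
              rw [← c2 a⁻¹]
              group
      rw [e]
      exact H.mul_mem (H.mul_mem (H.mul_mem ha hb) (H.inv_mem ha)) (H.inv_mem hb)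
    refine eq_top_iff.2 fun x _ => ?_
    have h4 := h (Abelianization Γ ⧸ H.map Abelianization.of)
      ((QuotientGroup.mk' _).comp Abelianization.of) (fun y hy =>
        (QuotientGroup.eq_one_iff _).2 (Subgroup.mem_map_of_mem _ hy)) x
    obtain ⟨n, hn, e⟩ := (QuotientGroup.eq_one_iff _).1 h4
    have h5 : n⁻¹ * x ∈ commutator Γ := by
      rw [← Abelianization.ker_of, MonoidHom.mem_ker, map_mul, map_inv, e, inv_mul_cancel]
    have h6 := H.mul_mem hn (h3 h5)
    rwa [mul_inv_cancel_left] at h6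

end Vale.Agent.P215Z.Shx
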